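import Vale.Agent.P088.R2.H493.INF.RowS
import Vale.Agent.P088.R2.H509.EP.Lit2

/-!
# P088 (helper493), crude bounds of the weight, part 5: **row CR**
-/

open Set Filter
open scoped ContDiff Topology Matrix

noncomputable section

namespace Vale.Agent.P088.R2.H493.INF

open Vale.Agent.P088.LR Vale.Agent.P088.HY Vale.Agent.P088.R2.H464.Cu
open Vale.Agent.P088.R2.H31.EP Vale.Agent.P088.R2.H475 Vale.Agent.P088.R2.H404.INF
open Vale.Agent.P088.R2.H222 (Bk Sk Lk Ck cB cG)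
open Vale.Agent.P088.R2.H168.INF (W0 st2 RowSt RowCr)
open Vale.Agent.P088.R2.H871.INF (Cr Cr_one RetF retF P2 P2_sm comp_bd)

variable {n : ℕ} {q : Cst} {d : Pk n}

/-! ## The slope -/

/-- The constants of the slope before `R`. -/
def c1 (q : Cst) : ℝ := Real.exp (4 * q.L + 1 / 20) * ((1 + q.ph.CT) * (q.ph.Cb * q.M₀))

def c2 (q : Cst) : ℝ := 1 + (q.L + 1 / 20) + ∑ j ∈ Finset.range 3, |q.phL.1 j| * (q.L + 1 / 20)

/-- More numerical conditions. -/
structure SN (n : ℕ) (q : Cst) : Prop where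
  s : SC n q
  ml : 10 * ML q.e₁ q.r₁ ≤ X q
  R5 : 5 ≤ q.R
  C3 : 1 ≤ q.C₃
  CT : 0 < q.ph.CT
  Cb : 0 < q.ph.Cb
  M1 : 1 ≤ q.M₀
  n1 : c1 q ≤ Y q
  n2 : c2 q ≤ Y q
  n3 : 24 * (∑ i ∈ Finset.range 5, Cr n i) ^ 4 ≤ Y q
  C4 : 600 * q.C₃ ≤ q.C₄

theorem ev_Y1 (f : Cst → ℝ) (hf : NB_R f) : EvC fun q => f q ≤ Y q := by
  refine ((ev_Y (fun q => |f q|) fun q => congrArg _ (hf q)).and evInf).mono fun q h => ?_
  have h1 : 0 ≤ X q := div_nonneg h.2.R0.le h.2.σ0.le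
  have h2 : |f q| * 1 ≤ |f q| * (1 + X q) ^ 2 :=
    mul_le_mul_of_nonneg_left (by nlinarith) (abs_nonneg _)
  have h3 := le_abs_self (f q)
  have h4 : |f q| * (1 + X q) ^ 2 ≤ Y q := h.1
  linarith

theorem ev_SN (hn : 1 ≤ n) : EvC (SN n) := by
  have e1 : EvC fun q => 5 ≤ q.R := EvC.at_R (fun _ t => 5 ≤ t) fun _ => eventually_ge_atTop _
  have e2 : EvC fun q => c1 q ≤ Y q := ev_Y1 c1 fun _ => rfl
  have e3 : EvC fun q => c2 q ≤ Y q := ev_Y1 c2 fun _ => rfl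
  have e4 : EvC fun q => 24 * (∑ i ∈ Finset.range 5, Cr n i) ^ 4 ≤ Y q :=
    ev_Y1 (fun _ => 24 * (∑ i ∈ Finset.range 5, Cr n i) ^ 4) fun _ => rfl
  have e5 : EvC fun q => 600 * q.C₃ ≤ q.C₄ :=
    EvC.at_C₄ (fun q t => 600 * q.C₃ ≤ t) fun _ => eventually_ge_atTop _
  refine ((((ev_SC hn).and EvC.pos).and (EvC.good.and e1)).and ((e2.and e3).and
    (e4.and e5))).mono ?_
  rintro q ⟨⟨⟨⟨s, ml⟩, p⟩, g, f1⟩, ⟨f2, f3⟩, f4, f5⟩
  exact ⟨s, ml, f1, p.2.1.2.2.2.2.2.1, g.1.1.CT0, g.1.1.Cb0, p.2.2.1, f2, f3, f4, f5⟩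

namespace SN

theorem L0 (s : SN n q) : 0 < q.L := by
  have := s.C3
  have := s.s.σ0
  unfold Cst.L
  positivity

theorem LR (s : SN n q) : q.L * (q.R / 5) = 2 * q.C₃ * X q := by
  have := s.s.σ0.ne'
  unfold Cst.L X
  field_simp
  ring

theorem CX (s : SN n q) : X q ≤ q.C₃ * X q := by
  have h1 := s.s.X1
  have h2 := s.C3
  nlinarith

/-- The slope increases at most like `e^((L + 1/20) u)`. -/
theorem gr (h : PkOk q d) {a b : ℝ} (hab : a ≤ b) :
    deriv d.Φ b ≤ deriv d.Φ a * Real.exp ((q.L + 1 / 20) * (b - a)) := by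
  set c := q.L + 1 / 20 with hc
  have hd1 : Differentiable ℝ (deriv d.Φ) := h.Φ's.differentiable (by simp)
  have hdf : ∀ u, HasDerivAt (fun u => deriv d.Φ u * Real.exp (-(c * u)))
      (deriv (deriv d.Φ) u * Real.exp (-(c * u)) +
        deriv d.Φ u * (Real.exp (-(c * u)) * (-(c * 1)))) u := fun u =>
    ((hd1 u).hasDerivAt).mul ((((hasDerivAt_id u).const_mul c).neg).exp)
  have hanti : Antitone fun u => deriv d.Φ u * Real.exp (-(c * u)) := by
    refine antitone_of_deriv_nonpos (fun u => (hdf u).differentiableAt) fun u => ?_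
    rw [(hdf u).deriv]
    have h1 := h.top.k2 u
    have h2 := Real.exp_pos (-(c * u))
    have h3 : (deriv (deriv d.Φ) u - c * deriv d.Φ u) * Real.exp (-(c * u)) ≤ 0 :=
      mul_nonpos_of_nonpos_of_nonneg (by rw [hc]; linarith) h2.le
    linarith
  have h1 := hanti hab
  have h2 := mul_le_mul_of_nonneg_right h1 (Real.exp_pos (c * b)).le
  simp only at h2
  rw [mul_assoc, ← Real.exp_add, mul_assoc, ← Real.exp_add, neg_add_cancel, Real.exp_zero,
    mul_one] at h2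
  refine h2.trans (le_of_eq ?_)
  congr 2
  ring

/-- **The slope.** -/
theorem N_le (s : SN n q) (h : PkOk q d) (u : ℝ) :
    deriv d.Φ u ≤ Y q ^ 2 * Real.exp (2 * q.C₃ * X q) := by
  have hR := s.R5
  have hL := s.L0
  have hLR := s.LR
  have hM := s.M1
  have ea : d.uta q = d.uth q + 23 / 10 * q.R := by unfold Pk.uta Pk.uth; ring
  have eb : d.utb q = d.uta q + 1 + (q.R / 5 - 1) := by unfold Pk.utb Pk.uta; ring
  have h1 := h.top.nb u
  have h2 := h.top.y3 (d.utb q) (by rw [eb]; linarith) le_rfl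
  have h3 := gr h (a := d.uta q) (b := d.uta q + 1) (by linarith)
  have h4 := h.top.y1 (d.uta q) (by rw [ea]; linarith) le_rfl
  have h5 := h.top.c1 (d.uth q) le_rfl
  rw [sub_self, Real.exp_zero, mul_one] at h5
  have h6 := h.ph.isΦ.n2 (d.uth q)
  have hCT := s.CT
  have hCb := s.Cb
  have h7 : deriv d.Φ (d.uth q) ≤ (1 + q.ph.CT) * (q.ph.Cb * q.M₀) :=
    h5.trans (mul_le_mul_of_nonneg_left h6 (by linarith))
  have h8 : Real.exp (2 * (d.uta q - d.uth q)) ≤ Y q := by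
    refine Real.exp_le_exp.2 ?_
    have := s.s.RX
    rw [ea]
    linarith
  have h9 : Real.exp (q.L * (d.utb q - (d.uta q + 1))) ≤ Real.exp (2 * q.C₃ * X q) := by
    refine Real.exp_le_exp.2 ?_
    rw [← hLR]
    refine mul_le_mul_of_nonneg_left ?_ hL.le
    rw [eb]
    linarith
  have hY := s.s.Y0
  have hN : 0 ≤ (1 + q.ph.CT) * (q.ph.Cb * q.M₀) := by positivity
  have h10 : deriv d.Φ (d.uta q) ≤ (1 + q.ph.CT) * (q.ph.Cb * q.M₀) * Y q := by
    rw [h4]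
    exact mul_le_mul h7 h8 (Real.exp_pos _).le hN
  have h11 : deriv d.Φ (d.uta q + 1) ≤
      (1 + q.ph.CT) * (q.ph.Cb * q.M₀) * Y q * Real.exp (q.L + 1 / 20) := by
    refine h3.trans ?_
    have e : (q.L + 1 / 20) * (d.uta q + 1 - d.uta q) = q.L + 1 / 20 := by ring
    rw [e]
    exact mul_le_mul_of_nonneg_right h10 (Real.exp_pos _).le
  have h12 : deriv d.Φ (d.utb q) ≤ (1 + q.ph.CT) * (q.ph.Cb * q.M₀) * Y q *
      Real.exp (q.L + 1 / 20) * Real.exp (2 * q.C₃ * X q) := by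
    rw [h2]
    exact mul_le_mul h11 h9 (Real.exp_pos _).le (by positivity)
  have h13 := mul_le_mul_of_nonneg_left h12 (Real.exp_pos (3 * q.L)).le
  refine (h1.trans h13).trans ?_
  have e : Real.exp (3 * q.L) * ((1 + q.ph.CT) * (q.ph.Cb * q.M₀) * Y q *
      Real.exp (q.L + 1 / 20) * Real.exp (2 * q.C₃ * X q)) =
      c1 q * (Y q * Real.exp (2 * q.C₃ * X q)) := by
    have e1 : Real.exp (4 * q.L + 1 / 20) = Real.exp (3 * q.L) * Real.exp (q.L + 1 / 20) := by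
      rw [← Real.exp_add]
      congr 1
      ring
    unfold c1
    rw [e1]
    ring
  rw [e]
  calc c1 q * (Y q * Real.exp (2 * q.C₃ * X q)) ≤ Y q * (Y q * Real.exp (2 * q.C₃ * X q)) :=
        mul_le_mul_of_nonneg_right s.n1 (by positivity)
    _ = _ := by ring

/-- The derivatives of the slope. -/
theorem sk_N (s : SN n q) (h : PkOk q d) :
    Sk 3 univ univ (Y q ^ 3 * Real.exp (2 * q.C₃ * X q)) (deriv d.Φ) := by
  have hL := s.L0
  have hY := s.s.Y1
  have hY0 := s.s.Y0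
  have hE := Real.exp_pos (2 * q.C₃ * X q)
  have hS : 0 ≤ ∑ j ∈ Finset.range 3, |q.phL.1 j| * (q.L + 1 / 20) :=
    Finset.sum_nonneg fun _ _ => mul_nonneg (abs_nonneg _) (by linarith)
  have hn2 := s.n2
  unfold c2 at hn2
  refine ⟨isOpen_univ, subset_univ _, h.Φ's.contDiffOn, fun j hj t _ => ?_⟩
  have hN := s.N_le h t
  have hN0 := h.N_pos s.M1 t
  have key : ∀ c : ℝ, 0 ≤ c → c ≤ Y q → c * deriv d.Φ t ≤
      Y q ^ 3 * Real.exp (2 * q.C₃ * X q) := by
    intro c h0 hc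
    calc c * deriv d.Φ t ≤ Y q * (Y q ^ 2 * Real.exp (2 * q.C₃ * X q)) :=
          mul_le_mul hc hN hN0.le hY0.le
      _ = _ := by ring
  rcases Nat.eq_zero_or_pos j with rfl | hj0
  · rw [iteratedDeriv_zero, abs_of_pos hN0]
    have := key 1 zero_le_one hY
    linarith
  · obtain ⟨i, rfl⟩ : ∃ i, j = i + 1 := ⟨j - 1, by omega⟩
    have h1 := h.top.kL i t
    have e : iteratedDeriv (i + 1) (deriv d.Φ) t = iteratedDeriv (i + 2) d.Φ t := by
      rw [show i + 2 = (i + 1) + 1 from rfl, iteratedDeriv_succ' (n := i + 1)]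
    rw [e]
    have h2 := h.top.k2 t
    have h3 := h.top.k0 t
    have h4 : |q.phL.1 i| * (q.L + 1 / 20) ≤
        ∑ j ∈ Finset.range 3, |q.phL.1 j| * (q.L + 1 / 20) :=
      Finset.single_le_sum (f := fun j => |q.phL.1 j| * (q.L + 1 / 20))
        (fun _ _ => mul_nonneg (abs_nonneg _) (by linarith)) (Finset.mem_range.2 (by omega))
    refine h1.trans (le_trans ?_ (key (|q.phL.1 i| * (q.L + 1 / 20))
      (mul_nonneg (abs_nonneg _) (by linarith)) (by linarith)))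
    calc q.phL.1 i * deriv (deriv d.Φ) t ≤ |q.phL.1 i| * deriv (deriv d.Φ) t :=
          mul_le_mul_of_nonneg_right (le_abs_self _) h3.le
      _ ≤ |q.phL.1 i| * ((q.L + 1 / 20) * deriv d.Φ t) :=
          mul_le_mul_of_nonneg_left h2 (abs_nonneg _)
      _ = _ := by ring

/-! ## The weight -/

/-- The part of the slope. -/
theorem Φu_bd (s : SN n q) (h : PkOk q d) : Bk 3 (Ua q d)
    (Y q ^ 199 * Real.exp (2 * q.C₃ * X q)) (fderiv ℝ fun z => d.Φ (d.u q z)) := by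
  have hY := s.s.Y64
  have hY1 := s.s.Y1
  have hY0 := s.s.Y0
  have hE := Real.exp_pos (2 * q.C₃ * X q)
  have b1 := Bk.fd1 (k := 3) (s.sk_N h) h.Φs.contDiffOn (s.s.bu h) fun _ _ => mem_univ _
  refine b1.le ?_
  have h1 : (1 : ℝ) ≤ Y q ^ 48 := one_le_pow₀ hY1
  have hM : 0 ≤ Y q ^ 3 * Real.exp (2 * q.C₃ * X q) := by positivity
  have h2 := cB_le hM h1 3
  calc 2 ^ 3 * cB 3 (Y q ^ 3 * Real.exp (2 * q.C₃ * X q)) (Y q ^ 48) * Y q ^ 48 ≤
        2 ^ 3 * (Y q ^ 3 * Real.exp (2 * q.C₃ * X q) * (2 ^ 3 * Y q ^ 48) ^ 3) * Y q ^ 48 := by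
        gcongr
    _ ≤ Y q * (Y q ^ 3 * Real.exp (2 * q.C₃ * X q) * (Y q * Y q ^ 48) ^ 3) * Y q ^ 48 := by
        gcongr
        · norm_num
          linarith
        · norm_num
          linarith
    _ = Y q ^ 199 * Real.exp (2 * q.C₃ * X q) := by ring

theorem W0_eq (q : Cst) (d : Pk n) : W0 q d = fun z => d.Φ (d.u q z) + st2 q d z := by
  funext z
  show d.Φ (d.u q z) + 1 * st (d.F q) (d.u q z) (d.r2 z) = _
  rw [one_mul]
  rfl

theorem W0_sm (s : SN n q) (h : PkOk q d) : ContDiff ℝ ∞ (W0 q d) :=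
  WW_smooth h.ok h.lev.sm (h.gi_sm s.s.ε2)

theorem Φu_sm (s : SN n q) (h : PkOk q d) : ContDiff ℝ ∞ fun z => d.Φ (d.u q z) :=
  h.Φs.comp (h.u_sm (h.gi_sm s.s.ε2))

theorem st2_sm (s : SN n q) (h : PkOk q d) : ContDiff ℝ ∞ (st2 q d) := by
  have e : st2 q d = fun z => W0 q d z - d.Φ (d.u q z) := by
    funext z
    rw [W0_eq]
    ring
  rw [e]
  exact (s.W0_sm h).sub (s.Φu_sm h)

/-- **The weight on the domain.** -/
theorem W0_bd (s : SN n q) (h : PkOk q d) {z : VV n} (hz : z ∈ Ua q d) {j : ℕ} (h1 : 1 ≤ j)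
    (h4 : j ≤ 4) : ‖iteratedFDeriv ℝ j (W0 q d) z‖ ≤ Real.exp (5 * q.C₃ * X q) := by
  have hX := s.s.X1
  have hC := s.CX
  have e : W0 q d = (fun z => d.Φ (d.u q z)) + st2 q d := W0_eq q d
  have hj' : (j : ℕ∞ω) ≤ ∞ := by exact_mod_cast le_top
  rw [e, iteratedFDeriv_add ((s.Φu_sm h).of_le hj') ((s.st2_sm h).of_le hj'), Pi.add_apply]
  refine (norm_add_le _ _).trans ?_
  have b1 := s.s.st_bd h s.ml hz h1 h4
  have b2 : ‖iteratedFDeriv ℝ j (fun z => d.Φ (d.u q z)) z‖ ≤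
      Y q ^ 199 * Real.exp (2 * q.C₃ * X q) := by
    obtain ⟨i, rfl⟩ : ∃ i, j = i + 1 := ⟨j - 1, by omega⟩
    have h3 := (s.Φu_bd h).b i (by omega) z hz
    rwa [norm_iteratedFDeriv_fderiv] at h3
  have b3 : Y q ^ 199 * Real.exp (2 * q.C₃ * X q) ≤ Real.exp (4 * q.C₃ * X q) := by
    rw [SC.Y_pow, ← Real.exp_add]
    refine Real.exp_le_exp.2 ?_
    norm_num
    linarith
  have b4 : Real.exp (4 * X q) ≤ Real.exp (4 * q.C₃ * X q) := Real.exp_le_exp.2 (by linarith)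
  have b5 : 2 * Real.exp (4 * q.C₃ * X q) ≤ Real.exp (5 * q.C₃ * X q) := by
    have e1 : Real.exp (5 * q.C₃ * X q) = Real.exp (q.C₃ * X q) * Real.exp (4 * q.C₃ * X q) := by
      rw [← Real.exp_add]
      congr 1
      ring
    rw [e1]
    refine mul_le_mul_of_nonneg_right ?_ (Real.exp_pos _).le
    have := Real.add_one_le_exp (q.C₃ * X q)
    linarith
  linarith

/-! ## The retraction -/

theorem retr (s : SN n q) (hn : 1 ≤ n) (h : PkOk q d) : RetF n q.σ q.R d.P := by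
  rw [h.ret.lit]
  have := s.s.σ2
  exact retF hn s.s.σ0 (by norm_num at this ⊢; linarith) s.s.R0

/-- The images of the retraction. -/
theorem P_mem (s : SN n q) (hn : 1 ≤ n) (h : PkOk q d) (x : V n) : d.P x ∈ Oa q d := by
  have hR := s.s.R0
  show d.l (d.P x) < d.l₀ q + 33 / 10 * q.R
  by_cases hc : lam0 q.R d.kap d.Gs - 229 / 100 * q.R ≤ levG n q.σ q.R d.kap d.Gs (d.P x)
  · have h1 := levG_high hn s.s.σ0 s.s.inf.σ1 hR hc
    have h2 := (s.retr hn h).hi x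
    have h3 : d.l (d.P x) = lv n q.σ q.R d.kap d.Gs (d.P x) := by rw [h.lev.lit]; exact h1
    have h4 : lv n q.σ q.R d.kap d.Gs (d.P x) =
        d.l₀ q + q.R * T4.gy n q.σ (q.R⁻¹ • d.P x) := by
      unfold lv Pk.l₀
      ring
    rw [h3, h4]
    nlinarith
  · rw [h.lev.lit]
    have h1 := not_le.1 hc
    have e : lam0 q.R d.kap d.Gs = d.l₀ q := rfl
    rw [e] at h1
    linarith

theorem P2_mem (s : SN n q) (hn : 1 ≤ n) (h : PkOk q d) (z : VV n) : P2 d.P z ∈ Ua q d :=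
  ⟨s.P_mem hn h z.1, s.P_mem hn h z.2⟩

end SN

theorem it_sub_const {E : Type*} [NormedAddCommGroup E] [NormedSpace ℝ E] (f : E → ℝ) (c : ℝ)
    {j : ℕ} (hj : 1 ≤ j) (z : E) :
    ‖iteratedFDeriv ℝ j (fun z => f z - c) z‖ = ‖iteratedFDeriv ℝ j f z‖ := by
  obtain ⟨i, rfl⟩ : ∃ i, j = i + 1 := ⟨j - 1, by omega⟩
  rw [← norm_iteratedFDeriv_fderiv, ← norm_iteratedFDeriv_fderiv]
  congr 2
  funext w
  rw [fderiv_sub_const]

/-- **Row CR.** -/
theorem rowCr (n : ℕ) : RowCr n := by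
  rcases Nat.eq_zero_or_pos n with rfl | hn
  · refine EvC.of fun q d _ z j hj _ => ?_
    rw [it_zero _ _ hj, norm_zero]
    exact (Real.exp_pos _).le
  refine (ev_SN hn).mono fun q s d h z j hj h4 => ?_
  have hX := s.s.X1
  have hC := s.CX
  have hR := s.s.R0
  set M := Real.exp (5 * q.C₃ * X q) with hM
  have hM0 : 0 < M := Real.exp_pos _
  set w := P2 d.P z with hw
  have hwU := s.P2_mem hn h z
  have h1 : ∀ i ≤ j, ‖iteratedFDeriv ℝ i (fun y => W0 q d y - W0 q d w) (P2 d.P z)‖ ≤ M := by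
    intro i hi
    rcases Nat.eq_zero_or_pos i with rfl | hi0
    · rw [norm_iteratedFDeriv_zero, ← hw, sub_self, norm_zero]
      exact hM0.le
    · rw [it_sub_const _ _ hi0]
      exact s.W0_bd h hwU hi0 (hi.trans h4)
  have h2 := comp_bd (s.retr hn h) (by linarith [s.R5]) ((s.W0_sm h).sub contDiff_const) j z h1
  rw [it_sub_const (fun z => W0 q d (P2 d.P z)) _ hj] at h2
  refine h2.trans ?_
  set S := ∑ i ∈ Finset.range 5, Cr n i with hS
  have h3 : (∑ i ∈ Finset.range (j + 1), Cr n i) ≤ S :=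
    Finset.sum_le_sum_of_subset_of_nonneg (Finset.range_subset_range.2 (by omega))
      fun i _ _ => zero_le_one.trans (Cr_one n i)
  have h5 : 1 ≤ ∑ i ∈ Finset.range (j + 1), Cr n i :=
    (Cr_one n 0).trans (Finset.single_le_sum (f := fun i => Cr n i)
      (fun i _ => zero_le_one.trans (Cr_one n i)) (Finset.mem_range.2 (by omega)))
  have h6 : (∑ i ∈ Finset.range (j + 1), Cr n i) ^ j ≤ S ^ 4 :=
    (pow_le_pow_left₀ (by linarith) h3 j).trans (pow_le_pow_right₀ (h5.trans h3) h4)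
  have h7 : (j.factorial : ℝ) ≤ 24 := by
    have : j.factorial ≤ (4).factorial := Nat.factorial_le h4
    have e : (4).factorial = 24 := rfl
    rw [e] at this
    exact_mod_cast this
  have h8 := s.n3
  calc j.factorial * M * (∑ i ∈ Finset.range (j + 1), Cr n i) ^ j ≤ 24 * M * S ^ 4 := by
        refine mul_le_mul (mul_le_mul_of_nonneg_right h7 hM0.le) h6 ?_ (by positivity)
        exact pow_nonneg (by linarith) _
    _ = 24 * S ^ 4 * M := by ring
    _ ≤ Y q * M := mul_le_mul_of_nonneg_right h8 hM0.le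
    _ ≤ Real.exp (q.C₄ * (q.R / q.σ) / 100) := by
        unfold Y
        rw [hM, ← Real.exp_add]
        refine Real.exp_le_exp.2 ?_
        have h9 := s.C4
        have e : q.R / q.σ = X q := rfl
        rw [e]
        have h10 := mul_le_mul_of_nonneg_right h9 (show (0 : ℝ) ≤ X q by linarith)
        linarith

end Vale.Agent.P088.R2.H493.INF
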