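import Vale.Agent.P088.R2.H493.INF.StC

/-!
# P088 (helper493), crude bounds of the weight, part 4: **row ST**
-/

open Set Filter
open scoped ContDiff Topology Matrix

noncomputable section

namespace Vale.Agent.P088.R2.H493.INF

open Vale.Agent.P088.LR Vale.Agent.P088.HY Vale.Agent.P088.R2.H464.Cu
open Vale.Agent.P088.R2.H31.EP Vale.Agent.P088.R2.H475 Vale.Agent.P088.R2.H404.INF
open Vale.Agent.P088.R2.H222 (Bk Sk Lk Ck cB cG)
open Vale.Agent.P088.R2.H168.INF (W0 st2 RowSt)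

variable {n : ℕ} {q : Cst} {d : Pk n}

theorem ev_exp (K : ℝ) {σ : ℝ} (hσ : 0 < σ) :
    ∀ᶠ t in atTop, K * (1 + t / σ) ^ 2 ≤ Real.exp (t / σ / 1000) := by
  have ht : Tendsto (fun t : ℝ => 1 + t / σ) atTop atTop :=
    tendsto_atTop_add_const_left _ _ (tendsto_id.atTop_div_const hσ)
  have hc : (0 : ℝ) < (|K| * Real.exp (1 / 1000) + 1)⁻¹ := by positivity
  have h1 := (isLittleO_pow_exp_pos_mul_atTop 2 (b := 1 / 1000) (by norm_num)).def hc
  filter_upwards [ht.eventually h1] with t h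
  rw [Real.norm_eq_abs, Real.norm_eq_abs, abs_of_nonneg (sq_nonneg _),
    abs_of_pos (Real.exp_pos _)] at h
  have e : Real.exp (1 / 1000 * (1 + t / σ)) = Real.exp (1 / 1000) * Real.exp (t / σ / 1000) := by
    rw [← Real.exp_add]
    congr 1
    ring
  rw [e] at h
  have h2 : (0 : ℝ) < |K| * Real.exp (1 / 1000) + 1 := by positivity
  have hE := Real.exp_pos (t / σ / 1000)
  have hk : |K| * Real.exp (1 / 1000) * (|K| * Real.exp (1 / 1000) + 1)⁻¹ ≤ 1 := by
    rw [← div_eq_mul_inv, div_le_one h2]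
    linarith
  calc K * (1 + t / σ) ^ 2 ≤ |K| * (1 + t / σ) ^ 2 :=
        mul_le_mul_of_nonneg_right (le_abs_self K) (sq_nonneg _)
    _ ≤ |K| * ((|K| * Real.exp (1 / 1000) + 1)⁻¹ *
        (Real.exp (1 / 1000) * Real.exp (t / σ / 1000))) :=
        mul_le_mul_of_nonneg_left h (abs_nonneg K)
    _ = |K| * Real.exp (1 / 1000) * (|K| * Real.exp (1 / 1000) + 1)⁻¹ *
        Real.exp (t / σ / 1000) := by ring
    _ ≤ 1 * Real.exp (t / σ / 1000) := mul_le_mul_of_nonneg_right hk hE.le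
    _ = _ := one_mul _

/-- A function of the constants before `R` is small compared with `Y`. -/
theorem ev_Y (f : Cst → ℝ) (hf : NB_R f) : EvC fun q => f q * (1 + X q) ^ 2 ≤ Y q := by
  have h := EvC.at_R (fun q t => 0 < q.σ → f q * (1 + t / q.σ) ^ 2 ≤ Real.exp (t / q.σ / 1000))
    fun q => by
      by_cases hσ : 0 < q.σ
      · exact (ev_exp (f q) hσ).mono fun _ h _ => h
      · exact Eventually.of_forall fun _ h => absurd h hσ
  refine (h.and evInf).mono fun q h => ?_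
  have := h.1 h.2.σ0
  rw [hf q] at this
  exact this

/-- A function of the constants before `R` is at most `X`. -/
theorem ev_X (f : Cst → ℝ) (hf : NB_R f) : EvC fun q => f q ≤ X q := by
  have h := EvC.at_R (fun q t => 0 < q.σ → f q ≤ t / q.σ) fun q => by
    by_cases hσ : 0 < q.σ
    · exact ((tendsto_id.atTop_div_const hσ).eventually_ge_atTop (f q)).mono fun _ h _ => h
    · exact Eventually.of_forall fun _ h => absurd h hσ
  refine (h.and evInf).mono fun q h => ?_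
  have := h.1 h.2.σ0
  rwa [hf q] at this

/-- **The numerical conditions hold for good constants.** -/
theorem ev_SC (hn : 1 ≤ n) : EvC fun q => SC n q ∧ 10 * ML q.e₁ q.r₁ ≤ X q := by
  have e1 : EvC fun q => q.σ ≤ 1 / 10 ^ 5 :=
    EvC.at_σ (fun _ t => t ≤ 1 / 10 ^ 5) fun _ => sml_le (by norm_num)
  have e2 : EvC fun q => q.es ≤ 1 := EvC.at_es (fun _ t => t ≤ 1) fun _ => sml_le one_pos
  have e3 : EvC fun q => (q.ε ≤ 1 ∧ n * q.ε ≤ 1 / 2) ∧ cG n 4 * q.ε ≤ 1 ∧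
      n * (cG n 4 * q.ε) ≤ 1 := by
    refine EvC.at_ε (fun _ t => (t ≤ 1 ∧ n * t ≤ 1 / 2) ∧ cG n 4 * t ≤ 1 ∧
      n * (cG n 4 * t) ≤ 1) fun q => ?_
    have hn0 : (0 : ℝ) ≤ n := Nat.cast_nonneg n
    have hG := H222.cG_nonneg n 4
    filter_upwards [sml_pos, sml_le (a := 1) one_pos,
      sml_le (a := 1 / (2 * n + 1)) (by positivity),
      sml_le (a := 1 / (cG n 4 + 1)) (by positivity),
      sml_le (a := 1 / (n * cG n 4 + 1)) (by positivity)] with t t0 t1 t2 t3 t4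
    refine ⟨⟨t1, ?_⟩, ?_, ?_⟩
    · rw [le_div_iff₀ (by positivity)] at t2
      nlinarith
    · rw [le_div_iff₀ (by positivity)] at t3
      nlinarith
    · rw [le_div_iff₀ (by positivity)] at t4
      nlinarith
  have e4 : EvC fun q => 0 < q.σ → q.σ ≤ 1 / 5000 → ∀ kap Gs : ℝ,
      Lk 4 {x : V n | levG n q.σ q.R kap Gs x < lam0 q.R kap Gs + 5 * q.R} (2 * n)
        (levG n q.σ q.R kap Gs) := by
    refine EvC.at_R (fun q t => 0 < q.σ → q.σ ≤ 1 / 5000 → ∀ kap Gs : ℝ,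
      Lk 4 {x : V n | levG n q.σ t kap Gs x < lam0 t kap Gs + 5 * t} (2 * n)
        (levG n q.σ t kap Gs)) fun q => ?_
    by_cases hc : 0 < q.σ ∧ q.σ ≤ 1 / 5000
    · obtain ⟨R0, -, H⟩ := H222.lev_Lk (n := n) hn hc.1 hc.2 4
      filter_upwards [eventually_ge_atTop R0] with t ht _ _ kap Gs using H t kap Gs ht
    · exact Eventually.of_forall fun _ a b => absurd ⟨a, b⟩ hc
  have e5 : EvC fun q => 2 ≤ q.R := EvC.at_R (fun _ t => 2 ≤ t) fun _ => eventually_ge_atTop _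
  have e6 : EvC fun q => KK n q.e₁ q.r₁ * (1 + X q) ^ 2 ≤ Y q :=
    ev_Y (fun q => KK n q.e₁ q.r₁) fun _ => rfl
  have e7 : EvC fun q => 10 * ML q.e₁ q.r₁ ≤ X q := ev_X (fun q => 10 * ML q.e₁ q.r₁) fun _ => rfl
  refine ((((EvC.pos.and evInf).and (e1.and e2)).and (e3.and e4)).and
    ((e5.and e6).and e7)).mono ?_
  rintro q ⟨⟨⟨⟨p, f⟩, f1, f2⟩, f3, f4⟩, ⟨f5, f6⟩, f7⟩
  have pe : 0 < q.e₁ := p.1.2.1
  have pc : 0 < q.c' := p.2.1.2.2.1
  have pM : 1 ≤ q.M₀ := p.2.2.1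
  have pε : 0 < q.ε := p.2.2.2.2.1
  have hr : 0 < q.r₁ := by
    unfold Cst.r₁
    positivity
  exact ⟨⟨f, f1, f5, pe, hr, f2, pε.le, f3.1.1, f3.1.2, f3.2.1, f3.2.2, f4 f.σ0 f.σ1, f6⟩, f7⟩

/-- Dimension `0`: the derivatives vanish. -/
theorem it_zero {G : Type*} [NormedAddCommGroup G] [NormedSpace ℝ G] (f : VV 0 → G) (z : VV 0)
    {j : ℕ} (hj : 1 ≤ j) : iteratedFDeriv ℝ j f z = 0 := by
  ext m
  have h : m ⟨0, hj⟩ = 0 := Subsingleton.elim _ _
  exact (iteratedFDeriv ℝ j f z).map_coord_zero ⟨0, hj⟩ h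

/-- **Row ST.** -/
theorem rowSt (n : ℕ) : RowSt n := by
  rcases Nat.eq_zero_or_pos n with rfl | hn
  · refine EvC.of fun q d _ z _ _ j hj _ => ?_
    rw [it_zero _ _ hj, norm_zero]
    exact (Real.exp_pos _).le
  · refine (ev_SC hn).mono fun q hq d h z h1 h2 j hj h4 => ?_
    have s := hq.1
    have hR := s.R0
    have hX := s.X1
    have hz : z ∈ Ua q d := ⟨by linarith, by linarith⟩
    refine (s.st_bd h hq.2 hz hj h4).trans (Real.exp_le_exp.2 ?_)
    have e : X q = q.R / q.σ := rfl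
    rw [← e]
    linarith

end Vale.Agent.P088.R2.H493.INF
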