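import Vale.Agent.P088.R2.H493.INF.Bk2
import Vale.Agent.P088.R2.H222.PkT
import Vale.Agent.P088.R2.H404.INF.Alv
import Vale.Agent.P088.R2.H168.INF.Spec
import Vale.Agent.P088.R2.H768.W.FarJ
import Vale.Agent.P088.R2.H871.INF.RetP

/-!
# P088 (helper493), crude bounds of the weight, part 1: geometry and functions of one variable
-/

open Set Filter
open scoped ContDiff Topology Matrix

noncomputable section

namespace Vale.Agent.P088.R2.H493.INF

open Vale.Agent.P088.LR Vale.Agent.P088.HY Vale.Agent.P088.R2.H464.Cu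
open Vale.Agent.P088.R2.H31.EP Vale.Agent.P088.R2.H475 Vale.Agent.P088.R2.H404.INF
open Vale.Agent.P088.R2.H222 (Bk Sk Lk Ck cB norm_midL difL dl)

variable {n : ℕ} {q : Cst} {d : Pk n}

/-- The domain: both levels below `l₀ + 3.3 R`. -/
def Ua (q : Cst) (d : Pk n) : Set (VV n) :=
  {z | d.l z.1 < d.l₀ q + 33 / 10 * q.R ∧ d.l z.2 < d.l₀ q + 33 / 10 * q.R}

/-- The points of the domain. -/
def Oa (q : Cst) (d : Pk n) : Set (V n) := {x | d.l x < d.l₀ q + 33 / 10 * q.R}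

theorem Oa_open (h : PkOk q d) : IsOpen (Oa q d) :=
  isOpen_lt h.lev.sm.continuous continuous_const

theorem Ua_open (h : PkOk q d) : IsOpen (Ua q d) :=
  (isOpen_lt (h.lev.sm.continuous.comp continuous_fst) continuous_const).inter
    (isOpen_lt (h.lev.sm.continuous.comp continuous_snd) continuous_const)

/-- The large number of the zone. -/
def X (q : Cst) : ℝ := q.R / q.σ

theorem wR_sq (hq : InfC q) (h : PkOk q d) {x : V n} (hx : x ∈ Oa q d) :
    HY.sq (wR n q.σ q.R x) ≤ 1 + 66 / 10 * q.σ := by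
  have h1 : d.l x < d.l₀ q + 33 / 10 * q.R := hx
  rw [h.lev.lit] at h1
  have h2 := H222.sq_wR_le (c := 33 / 10) hq.σ0 hq.σ1 hq.R0 (by norm_num) h1.le
  linarith

theorem wR_mid (x y : V n) (i : Fin n) : wR n q.σ q.R ((1 / 2 : ℝ) • (x + y)) i =
    (wR n q.σ q.R x i + wR n q.σ q.R y i) / 2 := by
  unfold wR wv
  simp only [Pi.smul_apply, Pi.add_apply, smul_eq_mul]
  ring

theorem mem_mid (hq : InfC q) (h : PkOk q d) {z : VV n} (hz : z ∈ Ua q d) : mid z ∈ Oa q d := by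
  have key : ∀ x y : V n, HY.sq (wR n q.σ q.R x) ≤ HY.sq (wR n q.σ q.R y) →
      d.l y < d.l₀ q + 33 / 10 * q.R → d.l ((1 / 2 : ℝ) • (x + y)) < d.l₀ q + 33 / 10 * q.R := by
    intro x y hxy hy
    refine lt_of_le_of_lt ?_ hy
    rw [h.lev.lit, levG_le_iff hq.σ0 hq.σ1 hq.R0]
    have e : HY.sq (wR n q.σ q.R ((1 / 2 : ℝ) • (x + y))) ≤
        (HY.sq (wR n q.σ q.R x) + HY.sq (wR n q.σ q.R y)) / 2 := by
      unfold HY.sq
      rw [← Finset.sum_add_distrib, Finset.sum_div]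
      refine Finset.sum_le_sum fun i _ => ?_
      rw [wR_mid]
      nlinarith [sq_nonneg (wR n q.σ q.R x i - wR n q.σ q.R y i)]
    linarith
  have e1 : mid z = (1 / 2 : ℝ) • (z.1 + z.2) := rfl
  show d.l (mid z) < _
  rw [e1]
  rcases le_total (HY.sq (wR n q.σ q.R z.1)) (HY.sq (wR n q.σ q.R z.2)) with h1 | h1
  · exact key _ _ h1 hz.2
  · rw [add_comm]
    exact key _ _ h1 hz.1

/-- The points are at a distance at most `3 X`. -/
theorem qq_le (hq : InfC q) (h : PkOk q d) {z : VV n} (hz : z ∈ Ua q d) :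
    H222.qq z ≤ 5 * X q ^ 2 := by
  have h1 := wR_sq hq h (x := z.1) hz.1
  have h2 := wR_sq hq h (x := z.2) hz.2
  have hσ := hq.σ0
  have hR := hq.R0
  have hσ1 := hq.σ1
  have e : H222.qq z * (q.σ / q.R) ^ 2 =
      ∑ i, (wR n q.σ q.R z.1 i - wR n q.σ q.R z.2 i) ^ 2 := by
    unfold H222.qq
    rw [Finset.sum_mul]
    refine Finset.sum_congr rfl fun i _ => ?_
    have := congrFun (wR_sub (σ := q.σ) (R := q.R) z.1 z.2) i
    simp only [Pi.sub_apply, Pi.smul_apply, smul_eq_mul] at this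
    rw [this, dif_apply]
    ring
  have e2 : ∑ i, (wR n q.σ q.R z.1 i - wR n q.σ q.R z.2 i) ^ 2 ≤ 5 := by
    have h3 : ∑ i, (wR n q.σ q.R z.1 i - wR n q.σ q.R z.2 i) ^ 2 ≤
        2 * (HY.sq (wR n q.σ q.R z.1) + HY.sq (wR n q.σ q.R z.2)) := by
      unfold HY.sq
      rw [← Finset.sum_add_distrib, Finset.mul_sum]
      refine Finset.sum_le_sum fun i _ => ?_
      nlinarith [sq_nonneg (wR n q.σ q.R z.1 i + wR n q.σ q.R z.2 i)]
    nlinarith
  have hp : 0 < (q.σ / q.R) ^ 2 := by positivity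
  have h4 : H222.qq z ≤ 5 / (q.σ / q.R) ^ 2 := by
    rw [le_div_iff₀ hp, e]
    exact e2
  refine h4.trans (le_of_eq ?_)
  unfold X
  field_simp

theorem l_le (hq : InfC q) (h : PkOk q d) {x : V n} (hx : x ∈ Oa q d) : d.l x ≤ 7 / 2 * q.R := by
  have h1 : d.l x < d.l₀ q + 33 / 10 * q.R := hx
  have h2 := l₀_le hq h
  have h3 := hq.η1
  have hR := hq.R0
  nlinarith

theorem l_ge (hq : InfC q) (h : PkOk q d) (x : V n) : -X q ≤ d.l x := by
  have h1 := levG_bot (kap := d.kap) (Gs := d.Gs) hq.σ0 hq.σ1 hq.R0 x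
  have h2 := l₀_nonneg hq h
  rw [l₀_eq] at h2
  rw [h.lev.lit]
  have hX : 0 ≤ X q := div_nonneg hq.R0.le hq.σ0.le
  have e : X q = q.R / q.σ := rfl
  rw [← e] at h1
  linarith

/-! ## The profile -/

/-- `log S` as a function of `r`. -/
def lS (e₁ r : ℝ) : ℝ := Real.log (prS e₁ (r ^ 2))

/-- **Bounds of `log S`.** -/
theorem sk_lS {e₁ r₀ : ℝ} (he : 0 < e₁) (hr : 0 < r₀) (k : ℕ) : ∃ C : ℝ, 0 ≤ C ∧
    ∀ T : ℝ, r₀ ≤ T → Sk k (Icc r₀ T) (Ioi 0) (C * (1 + T)) (lS e₁) ∧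
      ∀ r, r₀ ≤ r → r ≤ T → lS e₁ r ≤ C + 4 / 5 * r := by
  obtain ⟨R₁, P⟩ := (H768.FarJ.pp he).isProf
  have hpos : ∀ r : ℝ, 0 < r → 0 < prS e₁ (r ^ 2) := fun r h => P.pos _ (by positivity)
  have hd : ∀ r : ℝ, 0 < r → HasDerivAt (lS e₁) (prL e₁ r) r := by
    intro r h
    have h1 := (P.dS r h).log (hpos r h).ne'
    have h2 := (hpos r h).ne'
    refine h1.congr_deriv ?_
    show prL e₁ r * prS e₁ (r ^ 2) / prS e₁ (r ^ 2) = prL e₁ r
    field_simp
  have hs : ContDiffOn ℝ ∞ (lS e₁) (Ioi 0) := by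
    intro r h
    exact ((P.sm.comp (contDiff_id.pow 2)).contDiffAt.log (hpos r h).ne').contDiffWithinAt
  choose C₀ hC using fun k => P.bd k r₀ hr
  have hC0 : ∀ k, 0 ≤ C₀ k := fun k => (abs_nonneg _).trans (hC k r₀ le_rfl)
  set S := ∑ j ∈ Finset.range (k + 1), C₀ j with hS
  have hS0 : 0 ≤ S := Finset.sum_nonneg fun j _ => hC0 j
  have hle : ∀ j ≤ k, C₀ j ≤ S := fun j hj =>
    Finset.single_le_sum (f := C₀) (fun j _ => hC0 j) (Finset.mem_range.2 (by omega))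
  have hL : ∀ r, r₀ ≤ r → |prL e₁ r| ≤ S := fun r h => by
    have := hC 0 r h
    rw [iteratedDeriv_zero] at this
    exact this.trans (hle 0 (Nat.zero_le _))
  have hR1 : 0 < R₁ := (by norm_num [rp] : (0 : ℝ) < rp).trans P.r_lt
  have mvt : ∀ a b : ℝ, r₀ ≤ a → a ≤ b → |lS e₁ b - lS e₁ a| ≤ S * (b - a) := by
    intro a b ha hab
    have h1 := (convex_Icc a b).norm_image_sub_le_of_norm_hasDerivWithin_le (f := lS e₁)
      (f' := prL e₁) (C := S) (fun t ht => (hd t (by linarith [ht.1])).hasDerivWithinAt)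
      (fun t ht => hL t (by linarith [ht.1])) (left_mem_Icc.2 hab) (right_mem_Icc.2 hab)
    rw [Real.norm_eq_abs, Real.norm_eq_abs, abs_of_nonneg (sub_nonneg.2 hab)] at h1
    exact h1
  have up : ∀ a b : ℝ, r₀ ≤ a → R₁ ≤ a → a ≤ b → lS e₁ b ≤ lS e₁ a + 4 / 5 * (b - a) := by
    intro a b ha h1 hab
    have h2 := (convex_Icc a b).norm_image_sub_le_of_norm_hasDerivWithin_le (f := lS e₁)
      (f' := prL e₁) (C := 4 / 5) (fun t ht => (hd t (by linarith [ht.1])).hasDerivWithinAt)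
      (fun t ht => by
        have h3 : prL e₁ t = Li := P.L_far t (h1.trans ht.1)
        rw [h3, Li, Real.norm_eq_abs, abs_of_pos (by norm_num)])
      (left_mem_Icc.2 hab) (right_mem_Icc.2 hab)
    rw [Real.norm_eq_abs, Real.norm_eq_abs, abs_of_nonneg (sub_nonneg.2 hab)] at h2
    have := (abs_le.1 h2).2
    linarith
  set a₁ := max r₀ R₁ with ha
  have ha0 : r₀ ≤ a₁ := le_max_left _ _
  have ha1 : R₁ ≤ a₁ := le_max_right _ _
  refine ⟨|lS e₁ r₀| + S * a₁ + S, by positivity, fun T hT => ⟨⟨isOpen_Ioi, fun t ht =>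
    lt_of_lt_of_le hr ht.1, hs, fun j hj t ht => ?_⟩, fun r h1 h2 => ?_⟩⟩
  · have ht0 : 0 < t := lt_of_lt_of_le hr ht.1
    have hT0 : 0 ≤ T := (hr.le).trans hT
    have hA : 0 ≤ |lS e₁ r₀| + S * a₁ := by positivity
    rcases Nat.eq_zero_or_pos j with rfl | hj0
    · rw [iteratedDeriv_zero]
      have h3 := mvt r₀ t le_rfl ht.1
      have h4 : |lS e₁ t| ≤ |lS e₁ r₀| + |lS e₁ t - lS e₁ r₀| := by
        have := abs_add_le (lS e₁ r₀) (lS e₁ t - lS e₁ r₀)
        rwa [add_sub_cancel] at this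
      have h5 : S * (t - r₀) ≤ S * T := mul_le_mul_of_nonneg_left (by linarith [ht.2]) hS0
      nlinarith [mul_nonneg hA hT0]
    · obtain ⟨i, rfl⟩ : ∃ i, j = i + 1 := ⟨j - 1, by omega⟩
      have h3 : deriv (lS e₁) =ᶠ[𝓝 t] prL e₁ := by
        filter_upwards [Ioi_mem_nhds ht0] with s hs' using (hd s hs').deriv
      rw [iteratedDeriv_succ', h3.iteratedDeriv_eq]
      have h4 : |iteratedDeriv i (prL e₁) t| ≤ S := (hC i t ht.1).trans (hle i (by omega))
      nlinarith [mul_nonneg hA hT0, mul_nonneg hS0 hT0]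
  · rcases le_total r a₁ with h3 | h3
    · have h4 := (abs_le.1 (mvt r₀ r le_rfl h1)).2
      have h5 : S * (r - r₀) ≤ S * a₁ := mul_le_mul_of_nonneg_left (by linarith) hS0
      have h6 := le_abs_self (lS e₁ r₀)
      have h7 : 0 ≤ r := hr.le.trans h1
      linarith
    · have h4 := (abs_le.1 (mvt r₀ a₁ le_rfl ha0)).2
      have h5 : S * (a₁ - r₀) ≤ S * a₁ := mul_le_mul_of_nonneg_left (by linarith) hS0
      have h6 := le_abs_self (lS e₁ r₀)
      have h7 := up a₁ r ha0 ha1 h3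
      have h8 : 0 ≤ a₁ := hr.le.trans ha0
      linarith

/-- The cut-off of `μ`. -/
theorem sk_chi (k : ℕ) : ∃ M : ℝ, 0 ≤ M ∧ Sk k (Ici 0) univ M chi0 := by
  have hsm : ContDiff ℝ ∞ chi0 := Real.smoothTransition.contDiff.comp
    ((contDiff_const.sub contDiff_id).div_const _)
  obtain ⟨M, hM, h⟩ := H222.exists_Sk hsm (I := Icc 0 5) isCompact_Icc k
  refine ⟨M, hM, isOpen_univ, subset_univ _, hsm.contDiffOn, fun j hj t ht => ?_⟩
  by_cases h5 : t ≤ 5
  · exact h.b j hj t ⟨ht, h5⟩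
  · have h1 : chi0 =ᶠ[𝓝 t] fun _ => 0 := by
      filter_upwards [Ioi_mem_nhds (show (4 : ℝ) < t by linarith)] with s hs
      unfold chi0
      refine Real.smoothTransition.zero_of_nonpos ?_
      have hs' : (4 : ℝ) < s := hs
      rw [div_le_iff₀ (by norm_num)]
      linarith
    rw [h1.iteratedDeriv_eq]
    have : iteratedDeriv j (fun _ : ℝ => (0 : ℝ)) t = 0 := by simp
    rw [this, abs_zero]
    exact hM

/-- The smooth step. -/
theorem sk_st (k : ℕ) : ∃ M : ℝ, 0 ≤ M ∧ Sk k univ univ M Real.smoothTransition := by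
  choose B hB1 hB using H871.INF.T_stp.bdd
  refine ⟨∑ j ∈ Finset.range (k + 1), B j, Finset.sum_nonneg fun j _ => by linarith [hB1 j],
    isOpen_univ, subset_univ _, Real.smoothTransition.contDiff.contDiffOn, fun j hj t _ => ?_⟩
  exact (hB j t).trans (Finset.single_le_sum (f := B) (fun j _ => by linarith [hB1 j])
    (Finset.mem_range.2 (by omega)))

/-- The correction. -/
theorem sk_mu (h : PkOk q d) (k : ℕ) :
    Sk k univ univ (1 + ∑ j ∈ Finset.range (k + 1), |muC j|) d.μ := by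
  have hs : 0 ≤ ∑ j ∈ Finset.range (k + 1), |muC j| := Finset.sum_nonneg fun _ _ => abs_nonneg _
  refine ⟨isOpen_univ, subset_univ _, h.ph.isμ.sm.contDiffOn, fun j hj t _ => ?_⟩
  rcases Nat.eq_zero_or_pos j with rfl | hj0
  · rw [iteratedDeriv_zero]
    linarith [h.ph.μb t]
  · obtain ⟨i, rfl⟩ : ∃ i, j = i + 1 := ⟨j - 1, by omega⟩
    refine (h.ph.isμ.bj i t).trans ?_
    have h1 := h.ph.b0
    have h2 : |muC i| ≤ ∑ j ∈ Finset.range (k + 1), |muC j| :=
      Finset.single_le_sum (f := fun j => |muC j|) (fun _ _ => abs_nonneg _)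
        (Finset.mem_range.2 (by omega))
    have h0 : 0 ≤ H313.Mu.b0 1 q.M₀ := by
      have := h.ph.isμ.d1 0
      have := h.ph.isμ.d2 0
      linarith
    calc muC i * H313.Mu.b0 1 q.M₀ ≤ |muC i| * H313.Mu.b0 1 q.M₀ :=
          mul_le_mul_of_nonneg_right (le_abs_self _) h0
      _ ≤ |muC i| * 1 := mul_le_mul_of_nonneg_left (by linarith) (abs_nonneg _)
      _ ≤ _ := by linarith

end Vale.Agent.P088.R2.H493.INF
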