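import Vale.Agent.P088.R2.H493.INF.StA

/-!
# P088 (helper493), crude bounds of the weight, part 2: sizes
-/

open Set Filter
open scoped ContDiff Topology Matrix

noncomputable section

namespace Vale.Agent.P088.R2.H493.INF

open Vale.Agent.P088.LR Vale.Agent.P088.HY Vale.Agent.P088.R2.H464.Cu
open Vale.Agent.P088.R2.H31.EP Vale.Agent.P088.R2.H475 Vale.Agent.P088.R2.H404.INF
open Vale.Agent.P088.R2.H222 (Bk Sk Lk Ck cB norm_midL difL dl cG)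

/-! ## Powers of a large number -/

section pw

variable {E : Type*} [NormedAddCommGroup E] [NormedSpace ℝ E] {U : Set E} {y : ℝ} {a b : ℕ}
  {f g : E → ℝ}

theorem bk_up (hy : 1 ≤ y) (h : Bk 4 U (y ^ a) f) (hab : a ≤ b) : Bk 4 U (y ^ b) f :=
  h.le (pow_le_pow_right₀ hy hab)

theorem bk_add (hy : 2 ≤ y) (hf : Bk 4 U (y ^ a) f) (hg : Bk 4 U (y ^ a) g) :
    Bk 4 U (y ^ (a + 1)) fun z => f z + g z := by
  refine (hf.add hg).le ?_
  have : 0 ≤ y ^ a := by positivity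
  rw [pow_succ]
  nlinarith

theorem bk_sub (hy : 2 ≤ y) (hf : Bk 4 U (y ^ a) f) (hg : Bk 4 U (y ^ a) g) :
    Bk 4 U (y ^ (a + 1)) fun z => f z - g z := by
  refine (hf.sub hg).le ?_
  have : 0 ≤ y ^ a := by positivity
  rw [pow_succ]
  nlinarith

theorem bk_mul (hy : 16 ≤ y) (hf : Bk 4 U (y ^ a) f) (hg : Bk 4 U (y ^ b) g) :
    Bk 4 U (y ^ (a + b + 1)) fun z => f z * g z := by
  refine (hf.mul hg).le ?_
  have h1 : 0 ≤ y ^ a * y ^ b := by positivity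
  have e : y ^ (a + b + 1) = y * (y ^ a * y ^ b) := by ring
  rw [e]
  nlinarith

theorem bk_comp (hy : 16 ≤ y) {I J : Set ℝ} {S : ℝ → ℝ} (hS : Sk 4 I J (y ^ a) S)
    (hf : Bk 4 U (y ^ b) f) (hI : ∀ x ∈ U, f x ∈ I) :
    Bk 4 U (y ^ (a + 4 * b + 4)) fun z => S (f z) := by
  refine (H222.Bk.comp hS hf hI).le ?_
  have hy0 : 0 ≤ y := by linarith
  have h1 : (1 : ℝ) ≤ y ^ b := one_le_pow₀ (by linarith)
  refine (cB_le (by positivity) h1 4).trans ?_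
  calc y ^ a * (2 ^ 4 * y ^ b) ^ 4 ≤ y ^ a * (y * y ^ b) ^ 4 := by
        gcongr
        linarith
    _ = _ := by ring

end pw

/-! ## The constants -/

/-- The unit of size. -/
def Y (q : Cst) : ℝ := Real.exp (X q / 1000)

/-- The bound of the cut-off of `μ`. -/
def Mχ : ℝ := (sk_chi 4).choose

theorem Mχ_spec : 0 ≤ Mχ ∧ Sk 4 (Ici 0) univ Mχ chi0 := (sk_chi 4).choose_spec

/-- The bound of the smooth step. -/
def MT : ℝ := (sk_st 4).choose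

theorem MT_spec : 0 ≤ MT ∧ Sk 4 univ univ MT Real.smoothTransition := (sk_st 4).choose_spec

/-- The bound of `μ`. -/
def Mμ : ℝ := 1 + ∑ j ∈ Finset.range (4 + 1), |muC j|

theorem Mμ_nonneg : 0 ≤ Mμ := by
  have : 0 ≤ ∑ j ∈ Finset.range (4 + 1), |muC j| := Finset.sum_nonneg fun _ _ => abs_nonneg _
  unfold Mμ
  linarith

/-- The radius `rc`. -/
def rcF (r₁ : ℝ) : ℝ := r₁ * Real.exp (-1) / 2

open Classical in
/-- The bound of `log S`. -/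
def ML (e₁ r₁ : ℝ) : ℝ := if h : 0 < e₁ ∧ 0 < rcF r₁ then (sk_lS h.1 h.2 4).choose else 0

theorem ML_spec {e₁ r₁ : ℝ} (he : 0 < e₁) (hr : 0 < rcF r₁) : 0 ≤ ML e₁ r₁ ∧
    ∀ T : ℝ, rcF r₁ ≤ T → Sk 4 (Icc (rcF r₁) T) (Ioi 0) (ML e₁ r₁ * (1 + T)) (lS e₁) ∧
      ∀ r, rcF r₁ ≤ r → r ≤ T → lS e₁ r ≤ ML e₁ r₁ + 4 / 5 * r := by
  have e : ML e₁ r₁ = (sk_lS he hr 4).choose := by
    unfold ML
    rw [dif_pos ⟨he, hr⟩]
  rw [e]
  exact (sk_lS he hr 4).choose_spec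

open Classical in
/-- The bound of `S` on the inner part. -/
def MS (e₁ r₁ : ℝ) : ℝ := if h : ContDiff ℝ ∞ (prS e₁) then
  (H222.exists_Sk h (I := Icc 0 ((r₁ * Real.exp (-1)) ^ 2)) isCompact_Icc 4).choose else 0

theorem MS_spec {e₁ r₁ : ℝ} (h : ContDiff ℝ ∞ (prS e₁)) : 0 ≤ MS e₁ r₁ ∧
    Sk 4 (Icc 0 ((r₁ * Real.exp (-1)) ^ 2)) univ (MS e₁ r₁) (prS e₁) := by
  have e : MS e₁ r₁ =
      (H222.exists_Sk h (I := Icc 0 ((r₁ * Real.exp (-1)) ^ 2)) isCompact_Icc 4).choose := by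
    unfold MS
    rw [dif_pos h]
  rw [e]
  exact (H222.exists_Sk h (I := Icc 0 ((r₁ * Real.exp (-1)) ^ 2)) isCompact_Icc 4).choose_spec

/-- The bound of the constants of the slow exponential. -/
def MD : ℝ := ∑ a ∈ Finset.range 5, ∑ b ∈ Finset.range 5, |slB a b|

theorem MD_nonneg : 0 ≤ MD :=
  Finset.sum_nonneg fun _ _ => Finset.sum_nonneg fun _ _ => abs_nonneg _

theorem slB_le {a b : ℕ} (ha : a ≤ 4) (hb : b ≤ 4) : slB a b ≤ MD := by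
  have h1 : |slB a b| ≤ ∑ b ∈ Finset.range 5, |slB a b| :=
    Finset.single_le_sum (f := fun b => |slB a b|) (fun _ _ => abs_nonneg _)
      (Finset.mem_range.2 (by omega))
  have h2 : ∑ b ∈ Finset.range 5, |slB a b| ≤ MD :=
    Finset.single_le_sum (f := fun a => ∑ b ∈ Finset.range 5, |slB a b|)
      (fun _ _ => Finset.sum_nonneg fun _ _ => abs_nonneg _) (Finset.mem_range.2 (by omega))
  exact (le_abs_self _).trans (h1.trans h2)

/-- All constants. -/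
def KK (n : ℕ) (e₁ r₁ : ℝ) : ℝ := 64 + 4 * n +
  (n * (n * (2 ^ 4 * (2 ^ 4 * 9))) + n * (2 ^ 4 * 9)) + Mχ + MT + Mμ + |cQ 4 (rcF r₁ ^ 2)| +
  2 * |ML e₁ r₁| + |MS e₁ r₁| + MD + |rcF r₁|

/-- The numerical conditions. -/
structure SC (n : ℕ) (q : Cst) : Prop where
  inf : InfC q
  σ2 : q.σ ≤ 1 / 10 ^ 5
  R2 : 2 ≤ q.R
  e1 : 0 < q.e₁
  r1 : 0 < q.r₁
  es1 : q.es ≤ 1
  ε0 : 0 ≤ q.ε
  ε1 : q.ε ≤ 1
  ε2 : n * q.ε ≤ 1 / 2
  ε3 : cG n 4 * q.ε ≤ 1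
  ε4 : n * (cG n 4 * q.ε) ≤ 1
  Lk : ∀ kap Gs : ℝ, Lk 4 {x : V n | levG n q.σ q.R kap Gs x < lam0 q.R kap Gs + 5 * q.R} (2 * n)
        (levG n q.σ q.R kap Gs)
  KX : KK n q.e₁ q.r₁ * (1 + X q) ^ 2 ≤ Y q

namespace SC

variable {n : ℕ} {q : Cst} {d : Pk n}

theorem σ0 (s : SC n q) : 0 < q.σ := s.inf.σ0

theorem R0 (s : SC n q) : 0 < q.R := s.inf.R0

theorem RX (s : SC n q) : 10 ^ 5 * q.R ≤ X q := by
  unfold X
  rw [le_div_iff₀ s.σ0]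
  have h1 := s.σ2
  have h2 := s.R0
  rw [le_div_iff₀ (by norm_num)] at h1
  nlinarith

theorem X1 (s : SC n q) : 1 ≤ X q := by
  have := s.RX
  have := s.R2
  linarith

theorem rc0 (s : SC n q) : 0 < rcF q.r₁ := by
  have := s.r1
  unfold rcF
  positivity

theorem parts (s : SC n q) : 0 ≤ 4 * (n : ℝ) ∧
    0 ≤ (n * (n * (2 ^ 4 * (2 ^ 4 * 9))) + n * (2 ^ 4 * 9) : ℝ) ∧ 0 ≤ Mχ ∧ 0 ≤ MT ∧ 0 ≤ Mμ ∧
    0 ≤ |cQ 4 (rcF q.r₁ ^ 2)| ∧ 0 ≤ |ML q.e₁ q.r₁| ∧ 0 ≤ |MS q.e₁ q.r₁| ∧ 0 ≤ MD ∧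
    0 ≤ |rcF q.r₁| :=
  ⟨by positivity, by positivity, Mχ_spec.1, MT_spec.1, Mμ_nonneg, abs_nonneg _, abs_nonneg _,
    abs_nonneg _, MD_nonneg, abs_nonneg _⟩

theorem KK1 (s : SC n q) : 64 ≤ KK n q.e₁ q.r₁ := by
  obtain ⟨h1, h2, h3, h4, h5, h6, h7, h8, h9, h10⟩ := s.parts
  unfold KK
  linarith

/-- Every constant times `(1 + X)²` is at most `Y`. -/
theorem le_Y (s : SC n q) {c : ℝ} (hc : c ≤ KK n q.e₁ q.r₁) : c * (1 + X q) ^ 2 ≤ Y q :=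
  (mul_le_mul_of_nonneg_right hc (sq_nonneg _)).trans s.KX

theorem le_Y' (s : SC n q) {c : ℝ} (h0 : 0 ≤ c) (hc : c ≤ KK n q.e₁ q.r₁) : c ≤ Y q := by
  refine le_trans ?_ (s.le_Y hc)
  have h1 := s.X1
  refine le_mul_of_one_le_right h0 ?_
  nlinarith

theorem Y64 (s : SC n q) : 64 ≤ Y q := s.le_Y' (by norm_num) s.KK1

theorem Y1 (s : SC n q) : 1 ≤ Y q := by linarith [s.Y64]

theorem Y0 (s : SC n q) : 0 < Y q := Real.exp_pos _

theorem XY (s : SC n q) : 64 * X q ≤ Y q := by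
  refine le_trans ?_ (s.le_Y s.KK1)
  have := s.X1
  nlinarith

theorem Xn (s : SC n q) : X q + 2 * n ≤ Y q := by
  have h0 := s.X1
  have h1 : 64 + 4 * (n : ℝ) ≤ KK n q.e₁ q.r₁ := by
    obtain ⟨h1, h2, h3, h4, h5, h6, h7, h8, h9, h10⟩ := s.parts
    unfold KK
    linarith
  refine le_trans ?_ (s.le_Y h1)
  have hn : (0 : ℝ) ≤ n := Nat.cast_nonneg n
  have h2 : 1 ≤ (1 + X q) ^ 2 := by nlinarith
  have h3 : X q ≤ (1 + X q) ^ 2 := by nlinarith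
  have h4 := mul_le_mul_of_nonneg_left h2 hn
  linarith

/-- `e^(8 R) ≤ Y`. -/
theorem exp8 (s : SC n q) : Real.exp (8 * q.R) ≤ Y q := by
  refine Real.exp_le_exp.2 ?_
  have := s.RX
  have := s.R0
  linarith

/-! ## The level, the square -/

theorem bl (s : SC n q) (h : PkOk q d) : Bk 4 (Oa q d) (Y q ^ 1) d.l := by
  have hsub : ∀ x ∈ Oa q d,
      x ∈ {x : V n | levG n q.σ q.R d.kap d.Gs x < lam0 q.R d.kap d.Gs + 5 * q.R} := by
    intro x hx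
    have h1 : d.l x < d.l₀ q + 33 / 10 * q.R := hx
    rw [h.lev.lit, l₀_eq] at h1
    have := s.R0
    show levG n q.σ q.R d.kap d.Gs x < _
    linarith
  rw [pow_one]
  refine ⟨Oa_open h, h.lev.sm.contDiffOn, fun j hj x hx => ?_⟩
  rcases Nat.eq_zero_or_pos j with rfl | hj0
  · rw [norm_iteratedFDeriv_zero, Real.norm_eq_abs, abs_le]
    have h1 := l_le s.inf h hx
    have h2 := l_ge s.inf h x
    have h3 := s.XY
    have h4 := s.RX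
    have h5 := s.R0
    have h6 := s.X1
    constructor <;> linarith
  · have h1 := (s.Lk d.kap d.Gs).b j hj0 hj x (hsub x hx)
    rw [← h.lev.lit] at h1
    refine h1.trans ?_
    have := s.Xn
    have := s.X1
    linarith

theorem bl1 (s : SC n q) (h : PkOk q d) : Bk 4 (Ua q d) (Y q ^ 1) fun z : VV n => d.l z.1 :=
  (s.bl h).comp_right (ContinuousLinearMap.fst ℝ (V n) (V n))
    (ContinuousLinearMap.norm_fst_le _ _ _) (Ua_open h) fun _ hz => hz.1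

theorem bl2 (s : SC n q) (h : PkOk q d) : Bk 4 (Ua q d) (Y q ^ 1) fun z : VV n => d.l z.2 :=
  (s.bl h).comp_right (ContinuousLinearMap.snd ℝ (V n) (V n))
    (ContinuousLinearMap.norm_snd_le _ _ _) (Ua_open h) fun _ hz => hz.2

theorem blm (s : SC n q) (h : PkOk q d) : Bk 4 (Ua q d) (Y q ^ 1) fun z : VV n => d.l (mid z) :=
  (s.bl h).comp_right (midL n) norm_midL (Ua_open h) fun _ hz => mem_mid s.inf h hz

theorem cgi (s : SC n q) (h : PkOk q d) : Ck 4 univ (cG n 4 * q.ε) (gi d.s₁) :=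
  H222.ck_gi h (by linarith [s.R2]) s.ε0 (by norm_num) s.ε1 s.ε2

theorem qq9 (s : SC n q) (h : PkOk q d) {z : VV n} (hz : z ∈ Ua q d) :
    H222.qq z ≤ (3 * X q) ^ 2 := by
  have := qq_le s.inf h hz
  nlinarith [sq_nonneg (X q)]

theorem br (s : SC n q) (h : PkOk q d) : Bk 4 (Ua q d) (Y q ^ 1) d.r2 := by
  have hX := s.X1
  have h0 : 0 ≤ 3 * X q := by linarith
  have a1 : Bk 4 (Ua q d) (H222.c2 n 4 (3 * X q)) (H222.qq (n := n)) :=
    H222.bk_qq (Ua_open h) h0 fun z hz => s.qq9 h hz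
  have a2 : Bk 4 (Ua q d) (H222.c1 n 4 (3 * X q) * (cG n 4 * q.ε))
      (fun z => H31.EP.r2 (gi d.s₁) z - H222.qq z) :=
    H222.bk_r2_sub (O := univ) (Ua_open h) h0 (fun z hz => s.qq9 h hz) (fun _ _ => mem_univ _)
      fun i j => s.cgi h i j
  refine ((a1.add a2).congr (g := d.r2) fun z _ => ?_).le ?_
  · show H31.EP.r2 (gi d.s₁) z = _
    ring
  · rw [pow_one]
    have b1 := H222.c1_nonneg (n := n) (k := 4) h0
    have b2 : H222.c1 n 4 (3 * X q) * (cG n 4 * q.ε) ≤ H222.c1 n 4 (3 * X q) :=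
      mul_le_of_le_one_right b1 s.ε3
    have b3 : (n * (n * (2 ^ 4 * (2 ^ 4 * 9))) + n * (2 ^ 4 * 9) : ℝ) ≤ KK n q.e₁ q.r₁ := by
      obtain ⟨h1, h2, h3, h4, h5, h6, h7, h8, h9, h10⟩ := s.parts
      unfold KK
      linarith
    have b4 := s.le_Y b3
    have b5 : (3 * X q + 2) * (3 * X q + 2) ≤ 9 * (1 + X q) ^ 2 := by nlinarith
    have b6 : H222.c1 n 4 (3 * X q) ≤ n * (n * (2 ^ 4 * (2 ^ 4 * 9))) * (1 + X q) ^ 2 := by
      unfold H222.c1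
      calc (n : ℝ) * (n * (2 ^ 4 * (2 ^ 4 * (3 * X q + 2) * (3 * X q + 2)))) =
            n * (n * (2 ^ 4 * (2 ^ 4 * ((3 * X q + 2) * (3 * X q + 2))))) := by ring
        _ ≤ n * (n * (2 ^ 4 * (2 ^ 4 * (9 * (1 + X q) ^ 2)))) := by gcongr
        _ = _ := by ring
    have b7 : H222.c2 n 4 (3 * X q) ≤ n * (2 ^ 4 * 9) * (1 + X q) ^ 2 := by
      unfold H222.c2
      calc (n : ℝ) * (2 ^ 4 * (3 * X q + 2) * (3 * X q + 2)) =
            n * (2 ^ 4 * ((3 * X q + 2) * (3 * X q + 2))) := by ring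
        _ ≤ n * (2 ^ 4 * (9 * (1 + X q) ^ 2)) := by gcongr
        _ = _ := by ring
    linarith

theorem r2_bd (s : SC n q) (h : PkOk q d) {z : VV n} (hz : z ∈ Ua q d) :
    0 ≤ d.r2 z ∧ d.r2 z ≤ 10 * X q ^ 2 := by
  have h1 := H222.abs_r2_sub (U := univ) (O := univ) (fun _ _ => mem_univ _) (s.cgi h)
    (mul_nonneg (H222.cG_nonneg n 4) s.ε0) (mem_univ z)
  have h2 := qq_le s.inf h hz
  have h3 := H222.qq_nonneg z
  have h4 := abs_le.1 h1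
  have h5 : n * (cG n 4 * q.ε) * H222.qq z ≤ 1 * H222.qq z :=
    mul_le_mul_of_nonneg_right s.ε4 h3
  have e : d.r2 z = H31.EP.r2 (gi d.s₁) z := rfl
  rw [e]
  constructor <;> linarith

end SC

end Vale.Agent.P088.R2.H493.INF
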