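import Vale.Agent.P088.R2.H493.INF.StB

/-!
# P088 (helper493), crude bounds of the weight, part 3: the level `u` and the stiff part
-/

open Set Filter
open scoped ContDiff Topology Matrix

noncomputable section

namespace Vale.Agent.P088.R2.H493.INF

open Vale.Agent.P088.LR Vale.Agent.P088.HY Vale.Agent.P088.R2.H464.Cu
open Vale.Agent.P088.R2.H31.EP Vale.Agent.P088.R2.H475 Vale.Agent.P088.R2.H404.INF
open Vale.Agent.P088.R2.H222 (Bk Sk Lk Ck cB norm_midL difL dl cG)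
open Vale.Agent.P088.R2.H168.INF (W0 st2)

variable {n : ℕ} {q : Cst} {d : Pk n}

theorem KK_ge (s : SC n q) : Mχ ≤ KK n q.e₁ q.r₁ ∧ MT ≤ KK n q.e₁ q.r₁ ∧ Mμ ≤ KK n q.e₁ q.r₁ ∧
    |cQ 4 (rcF q.r₁ ^ 2)| ≤ KK n q.e₁ q.r₁ ∧ 2 * |ML q.e₁ q.r₁| ≤ KK n q.e₁ q.r₁ ∧
    |MS q.e₁ q.r₁| ≤ KK n q.e₁ q.r₁ ∧ MD ≤ KK n q.e₁ q.r₁ ∧ |rcF q.r₁| ≤ KK n q.e₁ q.r₁ := by
  obtain ⟨h1, h2, h3, h4, h5, h6, h7, h8, h9, h10⟩ := s.parts
  unfold KK
  refine ⟨?_, ?_, ?_, ?_, ?_, ?_, ?_, ?_⟩ <;> linarith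

namespace SC

theorem l0_bd (s : SC n q) (h : PkOk q d) : |d.l₀ q| ≤ Y q := by
  have h1 := l₀_nonneg s.inf h
  have h2 := l₀_le s.inf h
  have h3 := s.inf.η1
  have h4 := s.R0
  have h5 := s.RX
  have h6 := s.XY
  have h7 := s.X1
  rw [abs_of_nonneg h1]
  nlinarith

/-- The cut-off correction at the middle. -/
theorem bμ (s : SC n q) (h : PkOk q d) :
    Bk 4 (Ua q d) (Y q ^ 36) fun z : VV n => d.μc q (d.l (mid z)) := by
  have hY := s.Y64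
  have hY1 := s.Y1
  have hm := s.blm h
  have hR := s.R2
  obtain ⟨k1, k2, k3, k4, k5, k6, k7, k8⟩ := KK_ge s
  have b1 : Bk 4 (Ua q d) (Y q ^ 9) fun z : VV n => d.μ (d.l (mid z)) := by
    have hS : Sk 4 univ univ (Y q ^ 1) d.μ :=
      Sk.up (sk_mu h 4) (by rw [pow_one]; exact s.le_Y' Mμ_nonneg k3)
    exact bk_comp (by linarith) hS hm fun _ _ => mem_univ _
  have b2 : Bk 4 (Ua q d) (Y q ^ 2) fun z : VV n => d.l (mid z) - d.l₀ q := by
    refine bk_sub (by linarith) hm ?_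
    refine H222.Bk.const (Ua_open h) ?_
    rw [pow_one, Real.norm_eq_abs]
    exact s.l0_bd h
  have b3 : Bk 4 (Ua q d) (Y q ^ 4) fun z : VV n => 2 / q.R * (d.l (mid z) - d.l₀ q) := by
    refine bk_mul (a := 1) (b := 2) (by linarith) (H222.Bk.const (Ua_open h) ?_) b2
    rw [pow_one, Real.norm_eq_abs, abs_of_pos (by have := s.R0; positivity)]
    have : 2 / q.R ≤ 1 := by rw [div_le_one s.R0]; exact hR
    linarith
  have b4 : Bk 4 (Ua q d) (Y q ^ 5) fun z : VV n => 2 / q.R * (d.l (mid z) - d.l₀ q) - 1 := by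
    refine bk_sub (by linarith) b3 (H222.Bk.const (Ua_open h) ?_)
    rw [norm_one]
    exact one_le_pow₀ hY1
  have b5 : Bk 4 (Ua q d) (Y q ^ 25) fun z : VV n =>
      Real.smoothTransition (2 / q.R * (d.l (mid z) - d.l₀ q) - 1) := by
    have hS : Sk 4 univ univ (Y q ^ 1) Real.smoothTransition :=
      Sk.up MT_spec.2 (by rw [pow_one]; exact s.le_Y' MT_spec.1 k2)
    exact bk_comp (by linarith) hS b4 fun _ _ => mem_univ _
  have b6 : Bk 4 (Ua q d) (Y q ^ 26) fun z : VV n =>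
      1 - Real.smoothTransition (2 / q.R * (d.l (mid z) - d.l₀ q) - 1) := by
    refine bk_sub (a := 25) (by linarith) (H222.Bk.const (Ua_open h) ?_) b5
    rw [norm_one]
    exact one_le_pow₀ hY1
  refine (bk_mul (by linarith) b1 b6).congr fun z _ => ?_
  unfold Pk.μc
  congr 3
  ring

/-- **The level `u`.** -/
theorem bu (s : SC n q) (h : PkOk q d) : Bk 4 (Ua q d) (Y q ^ 48) (d.u q) := by
  have hY := s.Y64
  have hY1 := s.Y1
  obtain ⟨k1, k2, k3, k4, k5, k6, k7, k8⟩ := KK_ge s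
  have b1 : Bk 4 (Ua q d) (Y q ^ 9) fun z : VV n => d.χ (d.r2 z) := by
    have hS : Sk 4 (Ici 0) univ (Y q ^ 1) d.χ := by
      rw [h.eχ]
      exact Sk.up Mχ_spec.2 (by rw [pow_one]; exact s.le_Y' Mχ_spec.1 k1)
    exact bk_comp (by linarith) hS (s.br h) fun z hz => (s.r2_bd h hz).1
  have b2 : Bk 4 (Ua q d) (Y q ^ 46) fun z : VV n => d.χ (d.r2 z) * d.μc q (d.l (mid z)) :=
    bk_mul (by linarith) b1 (s.bμ h)
  have b3 := bk_add (by linarith) b2 b2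
  have b4 : Bk 4 (Ua q d) (Y q ^ 47) fun z : VV n => d.l z.1 + d.l z.2 :=
    bk_up hY1 (bk_add (by linarith) (s.bl1 h) (s.bl2 h)) (by norm_num)
  refine (bk_add (by linarith) b4 b3).congr fun z _ => ?_
  show H31.EP.uu (d.F q) d.l (gi d.s₁) z = _
  unfold H31.EP.uu
  show _ + 2 * (d.χ (d.r2 z) * d.μc q (d.l (mid z))) = _
  ring

theorem u_le (s : SC n q) (h : PkOk q d) {z : VV n} (hz : z ∈ Ua q d) : d.u q z ≤ 8 * q.R := by
  have h1 := l_le s.inf h (x := z.1) hz.1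
  have h2 := l_le s.inf h (x := z.2) hz.2
  have h3 := h.χb (d.r2 z)
  have h4 := (d.μc_abs q (d.l (mid z))).trans (h.ph.μb _)
  have h5 := (abs_le.1 h4).2
  have h6 : d.χ (d.r2 z) * d.μc q (d.l (mid z)) ≤ 1 * (1 / 8) := by
    rcases le_total 0 (d.μc q (d.l (mid z))) with h7 | h7
    · exact mul_le_mul h3.2 h5 h7 zero_le_one
    · exact (mul_nonpos_of_nonneg_of_nonpos h3.1 h7).trans (by norm_num)
  have e : d.u q z = d.l z.1 + d.l z.2 + 2 * (d.χ (d.r2 z) * d.μc q (d.l (mid z))) := rfl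
  have := s.R2
  rw [e]
  linarith

/-! ## The inner part -/

/-- The inner part of the domain. -/
def Uc (q : Cst) (d : Pk n) : Set (VV n) :=
  Ua q d ∩ d.r2 ⁻¹' Iio ((q.r₁ * Real.exp (-1)) ^ 2)

/-- The outer part of the domain. -/
def Ub (q : Cst) (d : Pk n) : Set (VV n) := Ua q d ∩ d.r2 ⁻¹' Ioi (rcF q.r₁ ^ 2)

theorem Uc_open (s : SC n q) (h : PkOk q d) : IsOpen (Uc q d) :=
  (s.br h).s.continuousOn.isOpen_inter_preimage (Ua_open h) isOpen_Iio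

theorem Ub_open (s : SC n q) (h : PkOk q d) : IsOpen (Ub q d) :=
  (s.br h).s.continuousOn.isOpen_inter_preimage (Ua_open h) isOpen_Ioi

theorem cover (s : SC n q) {z : VV n} (hz : z ∈ Ua q d) : z ∈ Uc q d ∨ z ∈ Ub q d := by
  by_cases h1 : d.r2 z < (q.r₁ * Real.exp (-1)) ^ 2
  · exact Or.inl ⟨hz, h1⟩
  · refine Or.inr ⟨hz, ?_⟩
    have h2 := s.r1
    have h3 : rcF q.r₁ ^ 2 < (q.r₁ * Real.exp (-1)) ^ 2 := by
      have : 0 < q.r₁ * Real.exp (-1) := by positivity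
      unfold rcF
      nlinarith
    exact lt_of_lt_of_le h3 (not_lt.1 h1)

theorem st_Uc (s : SC n q) (h : PkOk q d) : Bk 4 (Uc q d) (Y q ^ 207) (st2 q d) := by
  have hY := s.Y64
  have hY1 := s.Y1
  obtain ⟨k1, k2, k3, k4, k5, k6, k7, k8⟩ := KK_ge s
  have hc := s.Uc_open h
  have hsub : Uc q d ⊆ Ua q d := inter_subset_left
  have bu' := (s.bu h).mono le_rfl le_rfl hsub hc
  have br' := (s.br h).mono le_rfl le_rfl hsub hc
  have b1 : Bk 4 (Uc q d) (Y q ^ 197) fun z : VV n => Real.exp (d.u q z) := by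
    have hS : Sk 4 (Iic (8 * q.R)) univ (Y q ^ 1) Real.exp :=
      Sk.up (sk_exp 4 _) (by rw [pow_one]; exact s.exp8)
    exact bk_comp (by linarith) hS bu' fun z hz => s.u_le h hz.1
  have b2 : Bk 4 (Uc q d) (Y q ^ 9) fun z : VV n => prS q.e₁ (d.r2 z) := by
    have hm := MS_spec (e₁ := q.e₁) (r₁ := q.r₁) h.ok.Ss
    have hS : Sk 4 (Icc 0 ((q.r₁ * Real.exp (-1)) ^ 2)) univ (Y q ^ 1) (prS q.e₁) :=
      Sk.up hm.2 (by
        rw [pow_one]
        refine s.le_Y' hm.1 ((le_abs_self _).trans k6))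
    exact bk_comp (by linarith) hS br' fun z hz =>
      ⟨(s.r2_bd h hz.1).1, le_of_lt hz.2⟩
  refine (bk_mul (by linarith) b1 b2).congr fun z hz => ?_
  exact st_in' h.ok hz.2

/-! ## The outer part -/

theorem rr_ge (s : SC n q) {z : VV n} (hz : z ∈ Ub q d) : rcF q.r₁ ≤ √(d.r2 z) :=
  Real.le_sqrt_of_sq_le (le_of_lt hz.2)

theorem rr_le (s : SC n q) (h : PkOk q d) {z : VV n} (hz : z ∈ Ua q d) :
    √(d.r2 z) ≤ 4 * X q := by
  have h1 := (s.r2_bd h hz).2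
  have h2 := s.X1
  refine Real.sqrt_le_iff.2 ⟨by linarith, ?_⟩
  nlinarith

theorem brr (s : SC n q) (h : PkOk q d) : Bk 4 (Ub q d) (Y q ^ 10) fun z : VV n => √(d.r2 z) := by
  have hY := s.Y64
  have hY1 := s.Y1
  obtain ⟨k1, k2, k3, k4, k5, k6, k7, k8⟩ := KK_ge s
  have br' := (s.br h).mono le_rfl le_rfl inter_subset_left (s.Ub_open h)
  have hrc := s.rc0
  have hS : Sk 4 (Icc (rcF q.r₁ ^ 2) (Y q)) (Ioi 0) (Y q ^ 2) fun t : ℝ => √t := by
    refine Sk.up (sk_sqrt (by positivity) 4) ?_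
    have h1 : cQ 4 (rcF q.r₁ ^ 2) ≤ Y q :=
      (le_abs_self _).trans (s.le_Y' (abs_nonneg _) k4)
    have h2 : √(Y q) ≤ Y q := Real.sqrt_le_iff.2 ⟨s.Y0.le, by nlinarith⟩
    calc cQ 4 (rcF q.r₁ ^ 2) * √(Y q) ≤ Y q * Y q :=
          mul_le_mul h1 h2 (Real.sqrt_nonneg _) s.Y0.le
      _ = Y q ^ 2 := by ring
  refine bk_comp (by linarith) hS br' fun z hz => ⟨le_of_lt hz.2, ?_⟩
  have h1 := (s.r2_bd h hz.1).2
  refine h1.trans (le_trans ?_ (s.le_Y s.KK1))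
  have := s.X1
  nlinarith

/-- The exponent of the stiff part. -/
def φφ (q : Cst) (d : Pk n) (z : VV n) : ℝ := d.u q z + lS q.e₁ √(d.r2 z)

theorem bφ (s : SC n q) (h : PkOk q d) : Bk 4 (Ub q d) (Y q ^ 49) (φφ q d) := by
  have hY := s.Y64
  have hY1 := s.Y1
  obtain ⟨k1, k2, k3, k4, k5, k6, k7, k8⟩ := KK_ge s
  have bu' := (s.bu h).mono le_rfl le_rfl inter_subset_left (s.Ub_open h)
  have hrc := s.rc0
  have hm := ML_spec s.e1 hrc
  have hrY : rcF q.r₁ ≤ Y q := (le_abs_self _).trans (s.le_Y' (abs_nonneg _) k8)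
  have hS : Sk 4 (Icc (rcF q.r₁) (Y q)) (Ioi 0) (Y q ^ 2) (lS q.e₁) := by
    refine Sk.up (hm.2 (Y q) hrY).1 ?_
    have h1 : 2 * ML q.e₁ q.r₁ ≤ Y q := by
      have := s.le_Y' (by positivity) k5
      have := le_abs_self (ML q.e₁ q.r₁)
      linarith
    calc ML q.e₁ q.r₁ * (1 + Y q) ≤ ML q.e₁ q.r₁ * (2 * Y q) :=
          mul_le_mul_of_nonneg_left (by linarith) hm.1
      _ = 2 * ML q.e₁ q.r₁ * Y q := by ring
      _ ≤ Y q * Y q := mul_le_mul_of_nonneg_right h1 s.Y0.le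
      _ = Y q ^ 2 := by ring
  have b1 : Bk 4 (Ub q d) (Y q ^ 46) fun z : VV n => lS q.e₁ √(d.r2 z) := by
    refine bk_comp (by linarith) hS (s.brr h) fun z hz => ⟨s.rr_ge hz, ?_⟩
    have h1 := s.rr_le h hz.1
    have h2 := s.XY
    have h3 := s.X1
    linarith
  exact bk_add (by linarith) bu' (bk_up hY1 b1 (by norm_num))

theorem φ_le (s : SC n q) (h : PkOk q d) {z : VV n} (hz : z ∈ Ub q d)
    (hML : 10 * ML q.e₁ q.r₁ ≤ X q) : φφ q d z ≤ 7 / 2 * X q := by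
  have hrc := s.rc0
  have hm := ML_spec s.e1 hrc
  have h1 := (hm.2 √(d.r2 z) (s.rr_ge hz)).2 √(d.r2 z) (s.rr_ge hz) le_rfl
  have h2 := s.rr_le h hz.1
  have h3 := s.u_le h hz.1
  have h4 := s.RX
  have h5 := s.X1
  have h6 := s.R0
  unfold φφ
  linarith

theorem st_Ub (s : SC n q) (h : PkOk q d) {z : VV n} (hz : z ∈ Ub q d) :
    st2 q d z = q.D 0 0 (φφ q d z, √(d.r2 z)) := by
  have h0 : 0 < d.r2 z := lt_of_le_of_lt (sq_nonneg _) hz.2
  have e := st_out h.ok (u := d.u q z) h0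
  show st (d.F q) (d.u q z) (d.r2 z) = _
  rw [e]
  show q.D 0 0 (d.u q z + Real.log (prS q.e₁ (d.r2 z)), √(d.r2 z)) = _
  unfold φφ lS
  rw [Real.sq_sqrt h0.le]

theorem D_bd (s : SC n q) (h : PkOk q d) {z : VV n} (hz : z ∈ Ub q d)
    (hML : 10 * ML q.e₁ q.r₁ ≤ X q) {a b : ℕ} (h1 : 1 ≤ a + b) (h4 : a + b ≤ 4) :
    |q.D a b (φφ q d z, √(d.r2 z))| ≤ Y q ^ 2 * Real.exp (7 / 2 * X q) := by
  obtain ⟨k1, k2, k3, k4, k5, k6, k7, k8⟩ := KK_ge s
  have h0 : 0 < d.r2 z := lt_of_le_of_lt (sq_nonneg _) hz.2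
  have hr : 0 < √(d.r2 z) := Real.sqrt_pos.2 h0
  set w : ℝ × ℝ := (φφ q d z, √(d.r2 z)) with hw
  have hw2 : 0 < w.2 := hr
  have a1 := h.sl.bd1 a b w hw2 h1
  have a2 := (abs_le.1 (h.sl.G_u w hw2)).2
  have a3 := h.sl.G_pos w hw2
  have a4 : Real.exp (H768.W.uu q.τ q.r₁ w) ≤ Real.exp (7 / 2 * X q) := by
    obtain ⟨k, c1, c2, c3⟩ := h.sl.u_form w hw2
    refine Real.exp_le_exp.2 ?_
    rw [c3]
    have hk0 : 0 ≤ k := by
      refine le_trans ?_ c1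
      have : 0 ≤ min 1 √(q.r₁ / w.2) := le_min zero_le_one (Real.sqrt_nonneg _)
      linarith
    have h5 := s.φ_le h hz hML
    have h6 := s.X1
    have e : w.1 = φφ q d z := rfl
    rw [e]
    rcases le_total 0 (φφ q d z) with h7 | h7
    · calc k * φφ q d z ≤ 1 * φφ q d z := mul_le_mul_of_nonneg_right c2 h7
        _ ≤ _ := by linarith
    · have := mul_nonpos_of_nonneg_of_nonpos hk0 h7
      linarith
  have a5 : q.D 1 0 w ≤ 2 * Real.exp (7 / 2 * X q) := by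
    have h5 := s.es1
    have h6 := Real.exp_pos (H768.W.uu q.τ q.r₁ w)
    have h7 : q.D 1 0 w ≤ (1 + q.es) * Real.exp (H768.W.uu q.τ q.r₁ w) := by linarith
    have h8 : (1 + q.es) * Real.exp (H768.W.uu q.τ q.r₁ w) ≤
        2 * Real.exp (H768.W.uu q.τ q.r₁ w) := mul_le_mul_of_nonneg_right (by linarith) h6.le
    linarith
  have a6 : slB a b ≤ Y q := (slB_le (by omega) (by omega)).trans (s.le_Y' MD_nonneg k7)
  have hY := s.Y64
  have hE := Real.exp_pos (7 / 2 * X q)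
  calc |q.D a b w| ≤ slB a b * q.D 1 0 w := a1
    _ ≤ Y q * (2 * Real.exp (7 / 2 * X q)) := mul_le_mul a6 a5 a3.le s.Y0.le
    _ = 2 * Y q * Real.exp (7 / 2 * X q) := by ring
    _ ≤ Y q ^ 2 * Real.exp (7 / 2 * X q) := mul_le_mul_of_nonneg_right (by nlinarith) hE.le

theorem st_fd_Ub (s : SC n q) (h : PkOk q d) (hML : 10 * ML q.e₁ q.r₁ ≤ X q) :
    Bk 3 (Ub q d) (Y q ^ 202 * Real.exp (7 / 2 * X q)) (fderiv ℝ (st2 q d)) := by
  have hY := s.Y64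
  have hY1 := s.Y1
  have hY0 := s.Y0
  have ho := s.Ub_open h
  have hE := Real.exp_pos (7 / 2 * X q)
  have b1 := Bk.fd2 (k := 3) (D := q.D) (O := {w : ℝ × ℝ | 0 < w.2}) (U := Ub q d)
    (M := Y q ^ 2 * Real.exp (7 / 2 * X q)) (B := Y q ^ 49) h.sl.sm (fun i j w hw => h.sl.hd i j w hw)
    (f := φφ q d) (g := fun z => √(d.r2 z))
    (fun z hz => Real.sqrt_pos.2 (lt_of_le_of_lt (sq_nonneg _) hz.2)) (s.bφ h)
    (bk_up hY1 (s.brr h) (by norm_num)) fun a b h1 h4 z hz => s.D_bd h hz hML h1 h4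
  have e : ∀ z ∈ Ub q d, fderiv ℝ (st2 q d) z =
      fderiv ℝ (fun z => q.D 0 0 (φφ q d z, √(d.r2 z))) z := by
    intro z hz
    refine Filter.EventuallyEq.fderiv_eq ?_
    filter_upwards [ho.mem_nhds hz] with w hw using s.st_Ub h hw
  refine (b1.congr e).le ?_
  have h1 : (1 : ℝ) ≤ Y q ^ 49 := one_le_pow₀ hY1
  have hM : 0 ≤ Y q ^ 2 * Real.exp (7 / 2 * X q) := by positivity
  have h2 := cD_le hM h1 3
  calc 2 ^ (3 + 1) * cD 3 (Y q ^ 2 * Real.exp (7 / 2 * X q)) (Y q ^ 49) * Y q ^ 49 ≤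
        2 ^ (3 + 1) * (Y q ^ 2 * Real.exp (7 / 2 * X q) * (2 ^ 3 * Y q ^ 49) ^ 3) * Y q ^ 49 := by
        gcongr
    _ ≤ Y q * (Y q ^ 2 * Real.exp (7 / 2 * X q) * (Y q * Y q ^ 49) ^ 3) * Y q ^ 49 := by
        gcongr
        · norm_num
          linarith
        · norm_num
          linarith
    _ = _ := by ring

/-- The powers of `Y`. -/
theorem Y_pow (q : Cst) (m : ℕ) : Y q ^ m = Real.exp (m * X q / 1000) := by
  unfold Y
  rw [← Real.exp_nat_mul]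
  congr 1
  ring

/-- **The stiff part.** -/
theorem st_bd (s : SC n q) (h : PkOk q d) (hML : 10 * ML q.e₁ q.r₁ ≤ X q) {z : VV n}
    (hz : z ∈ Ua q d) {j : ℕ} (h1 : 1 ≤ j) (h4 : j ≤ 4) :
    ‖iteratedFDeriv ℝ j (st2 q d) z‖ ≤ Real.exp (4 * X q) := by
  have hX := s.X1
  rcases s.cover hz with h2 | h2
  · refine ((s.st_Uc h).b j h4 z h2).trans ?_
    rw [Y_pow]
    refine Real.exp_le_exp.2 ?_
    norm_num
    linarith
  · obtain ⟨i, rfl⟩ : ∃ i, j = i + 1 := ⟨j - 1, by omega⟩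
    have h3 := (s.st_fd_Ub h hML).b i (by omega) z h2
    rw [norm_iteratedFDeriv_fderiv] at h3
    refine h3.trans ?_
    rw [Y_pow, ← Real.exp_add]
    refine Real.exp_le_exp.2 ?_
    norm_num
    linarith

end SC

end Vale.Agent.P088.R2.H493.INF
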